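import Vale.Agent.P241.H171.Outer

/-!
# P241, block EX: central maps and semilinear maps

* `isMonHom_act` : for a central monoid map `io : Q ⟶ A` the action `A ⊗ Q ⟶ A` is a monoid map;
* `push_smul_semi` : semilinearity of `MP.push f` for a `Q`-semilinear `f : P ⟶ P'`.
-/

open CategoryTheory MonoidalCategory Limits Pretriangulated MonObj

set_option linter.unusedSectionVars false

universe v u

noncomputable section

namespace Vale.Agent.P241.H171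

open Vale.Agent.P251.T Vale.Agent.P251.M Vale.Agent.P251.M.EvenSpheres Vale.Agent.P251.S
  Vale.Agent.P251.F Vale.Agent.P251.I Vale.Agent.P251.Z Vale.Agent.P251.X

section act

variable {T : Type u} [Category.{v} T] [MonoidalCategory T] [SymmetricCategory T]

theorem mul_mul_eq (A : T) [MonObj A] : (μ[A] ⊗ₘ μ[A]) ≫ μ[A] =
    (α_ A A (A ⊗ A)).hom ≫ A ◁ ((α_ A A A).inv ≫ μ[A] ▷ A ≫ μ[A]) ≫ μ[A] := by
  have h1 : (α_ A A A).inv ≫ μ[A] ▷ A ≫ μ[A] = A ◁ μ[A] ≫ μ[A] := by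
    rw [MonObj.mul_assoc, Iso.inv_hom_id_assoc]
  rw [h1, MonoidalCategory.whiskerLeft_comp, Category.assoc, MonoidalCategory.tensorHom_def',
    Category.assoc, MonObj.mul_assoc, ← associator_naturality_right_assoc]

theorem tensorμ_mul_mul (A : T) [MonObj A] : tensorμ A A A A ≫ (μ[A] ⊗ₘ μ[A]) ≫ μ[A] =
    (α_ A A (A ⊗ A)).hom ≫ A ◁ ((α_ A A A).inv ≫ ((β_ A A).hom ≫ μ[A]) ▷ A ≫ μ[A]) ≫ μ[A] := by
  rw [mul_mul_eq]
  unfold tensorμ
  simp only [Category.assoc, Iso.inv_hom_id_assoc]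
  simp only [← MonoidalCategory.whiskerLeft_comp_assoc, Category.assoc, Iso.hom_inv_id_assoc,
    comp_whiskerRight]

theorem act_aux {Q A : T} [MonObj A] (io : Q ⟶ A) (m : A ⊗ A ⟶ A) :
    ((𝟙 A ⊗ₘ io) ⊗ₘ (𝟙 A ⊗ₘ io)) ≫ (α_ A A (A ⊗ A)).hom ≫
      A ◁ ((α_ A A A).inv ≫ m ▷ A ≫ μ[A]) ≫ μ[A] =
    (α_ A Q (A ⊗ Q)).hom ≫ A ◁ ((α_ Q A Q).inv ≫ ((io ▷ A ≫ m) ⊗ₘ io) ≫ μ[A]) ≫ μ[A] := by
  rw [associator_naturality_assoc]
  congr 1
  rw [id_tensorHom, ← MonoidalCategory.whiskerLeft_comp_assoc, associator_inv_naturality_assoc,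
    ← tensorHom_id m A, tensorHom_comp_tensorHom_assoc, Category.comp_id, tensorHom_id]

theorem isMonHom_act {Q A : T} [MonObj Q] [MonObj A] (io : Q ⟶ A) [IsMonHom io] (hio : Cen io) :
    IsMonHom (A ◁ io ≫ μ[A]) where
  one_hom := by
    change ((λ_ (𝟙_ T)).inv ≫ (η[A] ⊗ₘ η[Q])) ≫ A ◁ io ≫ μ[A] = η[A]
    have h1 : (η[A] ⊗ₘ η[Q]) ≫ A ◁ io = η[A] ⊗ₘ η[A] := by
      rw [← id_tensorHom, tensorHom_comp_tensorHom, Category.comp_id, IsMonHom.one_hom]
    rw [Category.assoc, reassoc_of% h1, MonObj.one_mul_hom, Iso.inv_hom_id_assoc]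
  mul_hom := by
    change (tensorμ A Q A Q ≫ (μ[A] ⊗ₘ μ[Q])) ≫ A ◁ io ≫ μ[A] =
      ((A ◁ io ≫ μ[A]) ⊗ₘ (A ◁ io ≫ μ[A])) ≫ μ[A]
    have h1 : (μ[A] ⊗ₘ μ[Q]) ≫ A ◁ io =
        ((𝟙 A ⊗ₘ 𝟙 A) ⊗ₘ (io ⊗ₘ io)) ≫ (μ[A] ⊗ₘ μ[A]) := by
      rw [← id_tensorHom, tensorHom_comp_tensorHom, tensorHom_comp_tensorHom, Category.comp_id,
        IsMonHom.mul_hom, id_tensorHom_id, Category.id_comp]
    have h2 : io ▷ A ≫ (β_ A A).hom ≫ μ[A] = io ▷ A ≫ μ[A] := by
      rw [BraidedCategory.braiding_naturality_left_assoc]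
      exact hio
    rw [Category.assoc, reassoc_of% h1, ← tensorμ_natural_assoc, tensorμ_mul_mul, act_aux, h2,
      ← act_aux, ← mul_mul_eq, ← tensorHom_comp_tensorHom, Category.assoc, id_tensorHom]

end act

section push

variable {T : Type u} [Category.{v} T] [Preadditive T] [MonoidalCategory T]
  [MonoidalPreadditive T] [SymmetricCategory T] {E : EvenSpheres T} {S P P' : T} [MonObj S]
  [MonObj P] [MonObj P']

theorem gsmul_push_semi (g : S ⟶ P) (g' : S ⟶ P') (f : P ⟶ P')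
    (hf : g ▷ P ≫ μ[P] ≫ f = (g' ⊗ₘ f) ≫ μ[P']) {W : T} {i j k : ℤ} (h : i + j = k)
    (a : E.S i ⟶ S) (x : E.S j ⟶ P ⊗ W) : gsmul (ModStr.free P W) h (a ≫ g) x ≫ f ▷ W =
      gsmul (ModStr.free P' W) h (a ≫ g') (x ≫ f ▷ W) := by
  unfold gsmul
  have e1 := EvenSpheres.ext_comp (E := E) h a x g (𝟙 (P ⊗ W))
  have e2 := EvenSpheres.ext_comp (E := E) h a x g' (f ▷ W)
  rw [Category.comp_id] at e1
  rw [e1, e2, Category.assoc, Category.assoc, Category.assoc]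
  congr 1
  change (g ⊗ₘ 𝟙 (P ⊗ W)) ≫ ((α_ P P W).inv ≫ (μ[P] ▷ W)) ≫ f ▷ W =
    (g' ⊗ₘ (f ▷ W)) ≫ (α_ P' P' W).inv ≫ (μ[P'] ▷ W)
  rw [tensorHom_id, Category.assoc, associator_inv_naturality_left_assoc, ← comp_whiskerRight,
    ← comp_whiskerRight, hf, comp_whiskerRight, ← tensorHom_id f W,
    associator_inv_naturality_assoc, tensorHom_id]

theorem push_smul_semi (g : S ⟶ P) (g' : S ⟶ P') [IsMonHom g] [IsMonHom g'] (f : P ⟶ P')
    (hf : g ▷ P ≫ μ[P] ≫ f = (g' ⊗ₘ f) ≫ μ[P']) {W : T} (a : HRing E S) (x : MP E P W) :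
    MP.push E f W (HRing.map g a • x) = HRing.map g' a • MP.push E f W x := by
  induction a using DirectSum.induction_on with
  | zero => rw [map_zero, map_zero, zero_smul, map_zero, zero_smul]
  | of i a =>
    induction x using MP.ind with
    | zero => rw [smul_zero, map_zero, smul_zero]
    | of j x =>
      change MP.push E f W (HRing.map g (HRing.of E S i a) • MP.of E P W j x) =
        HRing.map g' (HRing.of E S i a) • MP.push E f W (MP.of E P W j x)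
      rw [HRing.map_of, HRing.map_of, MP.smul_of (k := i + j) rfl, MP.push_of, MP.push_of,
        MP.smul_of (k := i + j) rfl, gsmul_push_semi g g' f hf]
    | add x y hx hy => rw [smul_add, map_add, map_add, hx, hy, smul_add]
  | add a b ha hb => rw [map_add, map_add, add_smul, map_add, ha, hb, add_smul]

end push

end Vale.Agent.P241.H171
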