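import Vale.Agent.P241.H171.PtA
import Vale.Agent.P241.H171.Semi

/-!
# P241, block EX: exactness of `W ↦ 𝔽_p ⊗ π_*(A ⊗ W)`

`Q : AD D p k`, `n = k + 1`, a law `Fb` over `𝔽_p` with `v_i = 0` for `i < n` and `v_n = 1`. Then
`W ↦ M W / (ker χ) M W` is exact (`exact_of_pointA`), in particular for `ptA Q` (`exact_ptA`).
-/

open CategoryTheory MonoidalCategory Limits Pretriangulated MonObj

set_option linter.unusedSectionVars false

universe v u

noncomputable section

namespace Vale.Agent.P241.H171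

open Vale.Agent.P217 Vale.Agent.P251.T Vale.Agent.P251.M Vale.Agent.P251.M.EvenSpheres
  Vale.Agent.P251.S Vale.Agent.P251.F Vale.Agent.P251.I Vale.Agent.P251.Z Vale.Agent.P251.X
  Vale.Agent.P241.EX

variable {T : Type u} [Category.{v} T] [Preadditive T] [HasZeroObject T]
    [HasShift T ℤ] [∀ n : ℤ, (shiftFunctor T n).Additive] [Pretriangulated T] [IsTriangulated T]
    [MonoidalCategory T] [SymmetricCategory T] [TensorTriangulated T] [MonoidalClosed T]
    [HasCoproducts.{0} T] [HasProducts.{0} T] [StableCat T] {D : MUData T} {p k : ℕ}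

theorem hmap_hmap {E : EvenSpheres T} {X Y Z : T} [MonObj X] [MonObj Y] [MonObj Z] (f : X ⟶ Y)
    [IsMonHom f] (g : Y ⟶ Z) [IsMonHom g] {h : X ⟶ Z} [IsMonHom h] (e : f ≫ g = h)
    (x : HRing E X) : HRing.map g (HRing.map f x) = HRing.map h x := by
  subst e
  rw [HRing.map_comp]
  rfl

section maps

variable (Q : AD D p k)

/-- the action `A ⊗ MU^{⊗ n} ⟶ A` -/
def kap : Q.A ⊗ Am D.R (k + 1) ⟶ Q.A := Q.A ◁ Q.io ≫ μ[Q.A]

instance : IsMonHom (kap Q) := isMonHom_act Q.io Q.central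

theorem inlM_kap : inlM Q.A (Am D.R (k + 1)) ≫ kap Q = 𝟙 Q.A := by
  unfold kap
  rw [inlM_whiskerLeft_assoc, inlM_mul]

theorem co_kap : Q.co ≫ kap Q = 𝟙 Q.A := Q.co_counit

theorem fr_stu : Am.map D.R (fr k (k + 1)) ≫ stu Q.io (k + 1) =
    Q.io ≫ inlM Q.A (Am D.R (k + 1)) := by
  unfold stu
  rw [← Category.assoc, map_fr_sp, inlM_whiskerRight]

theorem bk_stu : Am.map D.R (bk k) ≫ stu Q.io (k + 1) = inrM Q.A (Am D.R (k + 1)) := by
  unfold stu
  rw [← Category.assoc, map_bk_sp, inrM_whiskerRight]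

theorem stu_kap : stu Q.io (k + 1) ≫ kap Q = Am.map D.R (fo k) ≫ Q.io := by
  unfold stu kap
  rw [← sp_mul, Category.assoc, Category.assoc, IsMonHom.mul_hom,
    MonoidalCategory.tensorHom_def, Category.assoc]

/-- `Cob Laz (2k+1) ⟶ π_{2*}(A ⊗ MU^{⊗ n})` -/
def rhoG : Cob Laz (k + (k + 1)) →+* HRing (stdEven T) (Q.A ⊗ Am D.R (k + 1)) :=
  (HRing.map (E := stdEven T) (stu Q.io (k + 1))).comp (D.ev (k + (k + 1)))

theorem rhoG_front (h : Cob Laz k) : rhoG Q (Cob.map (fr k (k + 1)) h) =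
    HRing.map (E := stdEven T) (inlM Q.A (Am D.R (k + 1))) (rho Q h) := by
  unfold rhoG rho
  rw [RingHom.comp_apply, RingHom.comp_apply, ← D.ev_map, hmap_hmap _ _ (fr_stu Q),
    hmap_hmap _ _ rfl]

theorem rhoG_back (h : Cob Laz k) : rhoG Q (Cob.map (bk k) h) =
    HRing.map (E := stdEven T) (inrM Q.A (Am D.R (k + 1))) (D.ev k h) := by
  unfold rhoG
  rw [RingHom.comp_apply, ← D.ev_map, hmap_hmap _ _ (bk_stu Q)]

theorem map_kap_rhoG (g : Cob Laz (k + (k + 1))) :
    HRing.map (E := stdEven T) (kap Q) (rhoG Q g) = rho Q (Cob.map (fo k) g) := by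
  unfold rhoG rho
  rw [RingHom.comp_apply, RingHom.comp_apply, ← D.ev_map, hmap_hmap _ _ (stu_kap Q),
    hmap_hmap _ _ rfl]

/-- `MP A W` as a module over `Cob Laz k` -/
@[reducible] def modA (W : T) : Module (Cob Laz k) (MP (stdEven T) Q.A W) :=
  Module.compHom _ (rho Q)

/-- `MP (A ⊗ MU^{⊗ n}) W` as a module over `Cob Laz (2k+1)` -/
@[reducible] def modG (W : T) :
    Module (Cob Laz (k + (k + 1))) (MP (stdEven T) (Q.A ⊗ Am D.R (k + 1)) W) :=
  Module.compHom _ (rhoG Q)

end maps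

section basis

variable (Q : AD D p k) {Fc : SpaceFunctor T} {e : Fc.S.obj CCF ≅ (stdEven T).L} (H : MUUniv e D)

include H in
/-- the basis of `MP (A ⊗ MU^{⊗ n}) W` over `MP A W` -/
theorem exists_basisM : ∃ (J : Type) (β : J → Cob Laz (k + (k + 1))),
    (∀ g : Cob Laz (k + (k + 1)), ∃ x : J →₀ Cob Laz k,
      g = x.sum fun j h => Cob.map (fr k (k + 1)) h * β j) ∧
    ∀ W : T, Function.Bijective fun x : J →₀ MP (stdEven T) Q.A W =>
      x.sum fun a m => rhoG Q (β a) • MP.push (stdEven T) (inlM Q.A (Am D.R (k + 1))) W m := by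
  obtain ⟨J, b, β, hβ, hs⟩ := exists_outer_basis Q.io H (k + 1)
  refine ⟨J, β, hs, fun W => ?_⟩
  have hb : ∀ j, Cen (b.w j) := by
    intro j
    have h1 : b.w j = (D.ev (k + (k + 1)) (β j) : HRing (stdEven T) _) (b.k j) ≫
        stu Q.io (k + 1) := by
      rw [← map_apply (stu Q.io (k + 1)), ← hβ]
      exact (DirectSum.of_eq_same (β := (stdEven T).Gr _) (b.k j) (b.w j)).symm
    rw [h1]
    exact (cen_stu Q.io Q.central (k + 1)).comp _
  have h := bij_basis_cen b hb Vale.Agent.P251.X.isSphere_std W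
  have h2 : ∀ a, rhoG Q (β a) = HRing.of (stdEven T) (Q.A ⊗ Am D.R (k + 1)) (b.k a) (b.w a) :=
    fun a => (hβ a).symm
  simp only [h2]
  exact h

end basis

section assembly

variable (Q : AD D p k) [hp : Fact p.Prime] (Fb : Law (ZMod p))

theorem chi_surjective : Function.Surjective (chi Fb k) := ZMod.ringHom_surjective _

variable {J : Type} (β : J → Cob Laz (k + (k + 1)))
    (hβ : ∀ g : Cob Laz (k + (k + 1)), ∃ x : J →₀ Cob Laz k,
      g = x.sum fun j h => Cob.map (fr k (k + 1)) h * β j)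
    (hF : ∀ i < k + 1, vv p i Fb = 0) (hv : vv p (k + 1) Fb = 1)

/-- the ring side of the retract -/
def retRA : letI := (lam Fb k).toAlgebra
    RetR (Cob Laz k) (Bt p k) (Cob Laz (k + (k + 1))) J (Small (kdeg p (k + 1))) :=
  letI := (lam Fb k).toAlgebra
  { J := RingHom.ker (chi Fb k)
    i := Cob.map (fr k (k + 1))
    j := Cob.map (bk k)
    κ := Cob.map (fo k)
    θ := Cob.ev (cth Fb k (k + 1))
    C := (MvPolynomial.C.comp MvPolynomial.C).comp
      (RingHom.quotientKerEquivOfSurjective (chi_surjective Fb)).toRingHom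
    ε := (RingHom.quotientKerEquivOfSurjective (chi_surjective Fb)).symm.toRingHom.comp
      (MvPolynomial.constantCoeff.comp MvPolynomial.constantCoeff)
    θi := ev_cth_front Fb k (k + 1)
    θj := fun h => ev_cth_back Fb k h
    κi := fun h => by
      rw [Cob.map_map, fo_fr, Cob.map_id]
    εθ := fun g => by
      rw [RingHom.comp_apply, RingHom.comp_apply, constantCoeff_ev_cth]
      apply (RingHom.quotientKerEquivOfSurjective (chi_surjective Fb)).injective
      exact (RingEquiv.apply_symm_apply _ _).trans rfl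
    β := β
    spanG := hβ
    a := MvPolynomial.C (Laz.v p (k + 1))
    b := fun e => MvPolynomial.C (MvPolynomial.monomial (e : ℕ →₀ ℕ) 1)
    ha := by
      change lam Fb k _ = 1
      unfold lam
      rw [MvPolynomial.map_C, lift_bL_v Fb hF hv, map_one]
    spanB := span_cob Fb k hF hv (Nat.succ_ne_zero k)
    N := (Laz.I p (k + 1)).map MvPolynomial.C
    indB := ind_cob Fb k hF hv (Nat.succ_ne_zero k) }

/-- the module side of the retract -/
def retMA (W : T) (hb : Function.Bijective fun x : J →₀ MP (stdEven T) Q.A W =>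
      x.sum fun a m => rhoG Q (β a) • MP.push (stdEven T) (inlM Q.A (Am D.R (k + 1))) W m) :
    letI := (lam Fb k).toAlgebra
    letI := modA Q W
    letI := modG Q W
    RetM (retRA Fb β hβ hF hv) (MP (stdEven T) Q.A W)
      (MP (stdEven T) (Q.A ⊗ Am D.R (k + 1)) W) :=
  letI := (lam Fb k).toAlgebra
  letI := modA Q W
  letI := modG Q W
  { io := MP.push (stdEven T) (inlM Q.A (Am D.R (k + 1))) W
    hio := fun h m => by
      change MP.push (stdEven T) (inlM Q.A (Am D.R (k + 1))) W (rho Q h • m) =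
        rhoG Q (Cob.map (fr k (k + 1)) h) • _
      rw [MP.push_smul, rhoG_front]
    bij := hb
    ψ := (MP.push (stdEven T) Q.co W)
    hψ := fun h m => by
      change MP.push (stdEven T) Q.co W (rho Q h • m) = rhoG Q (Cob.map (bk k) h) • _
      rw [rhoG_back, rho_apply,
        push_smul_semi Q.io (inrM Q.A (Am D.R (k + 1))) Q.co Q.co_lin]
    k := MP.push (stdEven T) (kap Q) W
    hk := fun g m => by
      change MP.push (stdEven T) (kap Q) W (rhoG Q g • _) = rho Q (Cob.map (fo k) g) • m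
      rw [MP.push_smul, map_kap_rhoG, MP.push_push, inlM_kap, MP.push_id]
    kψ := fun m => by
      rw [MP.push_push, co_kap, MP.push_id]
    hN := fun h hh m => by
      change rho Q h • m = 0
      rw [(rho_eq_zero_iff Q h).2 hh, zero_smul] }

end assembly

section final

variable {Q : AD D p k} [hp : Fact p.Prime] {Fb : Law (ZMod p)} {N : ℕ}

theorem mem_smul_iff (c : Pt (stdEven T) Q.A p N) (hc : ∀ z, c.χ (rho Q z) = chi Fb k z) {W : T}
    (y : MP (stdEven T) Q.A W) :
    letI := modA Q W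
    y ∈ c.I • (⊤ : Submodule (HRing (stdEven T) Q.A) (MP (stdEven T) Q.A W)) ↔
      y ∈ RingHom.ker (chi Fb k) • (⊤ : Submodule (Cob Laz k) (MP (stdEven T) Q.A W)) := by
  letI := modA Q W
  constructor
  · intro h
    refine Submodule.smul_induction_on h (fun r hr m _ => ?_) (fun x y hx hy => add_mem hx hy)
    · obtain ⟨z, rfl⟩ := rho_surjective Q r
      have h1 : z ∈ RingHom.ker (chi Fb k) := by
        rw [RingHom.mem_ker, ← hc]
        exact hr
      exact Submodule.smul_mem_smul (M := MP (stdEven T) Q.A W) h1 trivial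
  · intro h
    refine Submodule.smul_induction_on h (fun r hr m _ => ?_) (fun x y hx hy => add_mem hx hy)
    · have h1 : rho Q r ∈ c.I := by
        rw [c.mem_I, hc]
        exact hr
      exact Submodule.smul_mem_smul (M := MP (stdEven T) Q.A W) h1 trivial

/-- **Exactness of `W ↦ M W / (ker χ) M W`.** -/
theorem exact_of_pointA {Fc : SpaceFunctor T} {e : Fc.S.obj CCF ≅ (stdEven T).L}
    (H : MUUniv e D) (hF : ∀ i < k + 1, vv p i Fb = 0) (hv : vv p (k + 1) Fb = 1)
    (c : Pt (stdEven T) Q.A p N) (hc : ∀ z, c.χ (rho Q z) = chi Fb k z) : c.Exact := by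
  intro X Y Z f g h hT y hy
  obtain ⟨J, β, hβ, hb⟩ := exists_basisM Q H
  letI := (lam Fb k).toAlgebra
  letI := modA Q X
  letI := modA Q Y
  letI := modA Q Z
  letI := modG Q Y
  letI := modG Q Z
  have hN : p ^ (k + 1) - 1 ≠ 0 := by
    have : 1 < p ^ (k + 1) := Nat.one_lt_pow (Nat.succ_ne_zero k) hp.out.one_lt
    omega
  obtain ⟨a, ha⟩ := exists_vA Q (k + 1)
  let fL : MP (stdEven T) Q.A X →ₗ[Cob Laz k] MP (stdEven T) Q.A Y :=
    { toFun := MP.map (stdEven T) Q.A f
      map_add' := fun x y => map_add _ x y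
      map_smul' := fun z m => (MP.map (stdEven T) Q.A f).map_smul (rho Q z) m }
  let gL : MP (stdEven T) Q.A Y →ₗ[Cob Laz k] MP (stdEven T) Q.A Z :=
    { toFun := MP.map (stdEven T) Q.A g
      map_add' := fun x y => map_add _ x y
      map_smul' := fun z m => (MP.map (stdEven T) Q.A g).map_smul (rho Q z) m }
  let gL' : MP (stdEven T) (Q.A ⊗ Am D.R (k + 1)) Y →ₗ[Cob Laz (k + (k + 1))]
      MP (stdEven T) (Q.A ⊗ Am D.R (k + 1)) Z :=
    { toFun := MP.map (stdEven T) (Q.A ⊗ Am D.R (k + 1)) g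
      map_add' := fun x y => map_add _ x y
      map_smul' := fun z m =>
        (MP.map (stdEven T) (Q.A ⊗ Am D.R (k + 1)) g).map_smul (rhoG Q z) m }
  obtain ⟨x, hx⟩ := exact_of_retract (retMA Q Fb β hβ hF hv Y (hb Y))
    (retMA Q Fb β hβ hF hv Z (hb Z)) fL gL gL'
    (fun m => MP.map_push _ _ _) (fun m => MP.map_push _ _ _) (by
      intro y z hyz
      have h1 : MP.map (stdEven T) Q.A g y =
          HRing.of (stdEven T) Q.A ((p ^ (k + 1) - 1 : ℕ) : ℤ) a • z - z := by
        rw [← ha]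
        exact hyz
      have hex : ∀ (m : ℤ) (y : (stdEven T).S m ⟶ Q.A ⊗ Y), y ≫ Q.A ◁ g = 0 →
          ∃ x : (stdEven T).S m ⟶ Q.A ⊗ X, x ≫ Q.A ◁ f = y := by
        intro m y hy
        obtain ⟨b, hb⟩ := ex₂ (tens_dist Q.A hT) y hy
        exact ⟨b, hb.symm⟩
      obtain ⟨x, y', hxy⟩ := exists_of_sub hN a f g hex y z h1
      refine ⟨x, y', ?_⟩
      rw [← ha] at hxy
      exact hxy) y ((mem_smul_iff c hc _).1 hy)
  exact ⟨x, (mem_smul_iff c hc _).2 hx⟩

/-- **Exactness for the point of height `n = k + 1`.** -/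
theorem exact_ptA {Fc : SpaceFunctor T} {e : Fc.S.obj CCF ≅ (stdEven T).L} (H : MUUniv e D)
    (Q : AD D p k) : (ptA Q).Exact :=
  exact_of_pointA H (vv_FbA_lt (k + 1)) (vv_ptLaw (Nat.succ_ne_zero k) _ _) (ptA Q) (ptA_χ Q)

end final

end Vale.Agent.P241.H171
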