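import Vale.Agent.P251.X.Push

/-!
# P241, block EX: expansions over a central graded basis

`B` an associative monoid, `b : GBasis E φ J` with central classes `b.w j`. Then every element of
`MP E B W` is a unique finite sum `∑ w j • push φ (x j)` (`P251.X.MP.bij_basis` without
commutativity of `B`).
-/

open CategoryTheory MonoidalCategory Limits Pretriangulated MonObj

set_option linter.unusedSectionVars false

universe v u

noncomputable section

namespace Vale.Agent.P241.H171

open Vale.Agent.P251.T Vale.Agent.P251.M Vale.Agent.P251.M.EvenSpheres Vale.Agent.P251.S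
  Vale.Agent.P251.X

section cen

variable {T : Type u} [Category.{v} T] [MonoidalCategory T] [SymmetricCategory T]

/-- `w : X ⟶ B` is central. -/
def Cen {X B : T} [MonObj B] (w : X ⟶ B) : Prop :=
  (β_ X B).hom ≫ B ◁ w ≫ μ[B] = w ▷ B ≫ μ[B]

theorem cen_of_comm {X B : T} [MonObj B] [IsCommMonObj B] (w : X ⟶ B) : Cen w := by
  unfold Cen
  rw [← BraidedCategory.braiding_naturality_left_assoc, IsCommMonObj.mul_comm]

theorem Cen.comp {X Y B : T} [MonObj B] {w : X ⟶ B} (h : Cen w) (f : Y ⟶ X) : Cen (f ≫ w) := by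
  unfold Cen at h ⊢
  rw [whiskerLeft_comp, Category.assoc, comp_whiskerRight, Category.assoc, ← h,
    BraidedCategory.braiding_naturality_left_assoc]

lemma braid_exch' (B Y S : T) :
    (β_ (B ⊗ Y) S).hom ≫ (α_ S B Y).inv = (exch B Y S).hom ≫ ((β_ B S).hom ▷ Y) := by
  unfold exch
  rw [BraidedCategory.braiding_tensor_left_hom]
  simp only [Iso.trans_hom, whiskerLeftIso_hom, Iso.symm_hom, Category.assoc, Iso.hom_inv_id,
    Category.comp_id]

variable {E : EvenSpheres T}

lemma gact_cen {B Y : T} [MonObj B] {k m n : ℤ} (h : k + m = n) {w : E.S k ⟶ B} (hw : Cen w)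
    (y : E.S m ⟶ B ⊗ Y) (h1 : m + k = n) :
    gact Y h w y = E.ext h1 y (𝟙 (E.S k)) ≫ (exch B Y (E.S k)).hom ≫ ((B ◁ w ≫ μ[B]) ▷ Y) := by
  unfold gact gsmul
  have e1 := ext_comm (E := E) h1 h y (𝟙 (E.S k))
  have e2 := ext_comp (E := E) h (𝟙 (E.S k)) y w (𝟙 (B ⊗ Y))
  rw [Category.id_comp, Category.comp_id] at e2
  rw [e2, ← e1]
  change (_ ≫ (w ⊗ₘ 𝟙 (B ⊗ Y))) ≫ ((α_ B B Y).inv ≫ (μ[B] ▷ Y)) = _
  have e3 : (w ⊗ₘ 𝟙 (B ⊗ Y)) ≫ (α_ B B Y).inv ≫ (μ[B] ▷ Y) =
      (α_ (E.S k) B Y).inv ≫ ((w ▷ B ≫ μ[B]) ▷ Y) := by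
    rw [tensorHom_id, comp_whiskerRight, associator_inv_naturality_left_assoc]
  rw [Category.assoc, e3, ← hw, comp_whiskerRight, Category.assoc]
  rw [reassoc_of% braid_exch', ← comp_whiskerRight_assoc, SymmetricCategory.symmetry,
    id_whiskerRight, Category.id_comp]

lemma gtw_comp_cen {B F Y : T} [MonObj B] {k m n : ℤ} (h : k + m = n)
    (φ : F ⟶ B) {w : E.S k ⟶ B} (hw : Cen w) (x : E.S m ⟶ F ⊗ Y) :
    gtw h x ≫ (((φ ⊗ₘ w) ≫ μ[B]) ▷ Y) = gact Y h w (x ≫ φ ▷ Y) := by
  have h1 : m + k = n := by omega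
  rw [gact_cen h hw _ h1]
  unfold gtw
  have e2 := ext_comp (E := E) h1 x (𝟙 (E.S k)) (φ ▷ Y) (𝟙 (E.S k))
  rw [Category.id_comp] at e2
  rw [e2, Category.assoc, Category.assoc, exch_natural_assoc, ← comp_whiskerRight,
    tensorHom_id, ← tensorHom_def_assoc]

end cen

section basis

variable {T : Type u} [Category.{v} T] [Preadditive T] [HasZeroObject T]
    [HasShift T ℤ] [∀ n : ℤ, (shiftFunctor T n).Additive] [Pretriangulated T] [IsTriangulated T]
    [MonoidalCategory T] [SymmetricCategory T] [TensorTriangulated T] [MonoidalClosed T]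
    [HasCoproducts.{0} T] [HasProducts.{0} T] [StableCat T] {E : EvenSpheres T}
    {P B : T} [MonObj P] [MonObj B] {φ : P ⟶ B} {J : Type}

theorem exists_expansion_cen (b : GBasis E φ J) (hb : ∀ j, Cen (b.w j)) (Y : T) (n : ℤ)
    (hS : IsSphere (E.S n)) (f : E.S n ⟶ B ⊗ Y) :
    ∃ (t : Finset J) (x : ∀ j, E.S (n - b.k j) ⟶ P ⊗ Y),
      f = ∑ j ∈ t, gact Y (add_sub_cancel (b.k j) n) (b.w j) (x j ≫ φ ▷ Y) := by
  obtain ⟨t, g, rfl⟩ := b.exists_sum_sphere Y hS f
  choose x hx using fun j => (gtw_bijective (E := E) (F := P) (Y := Y)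
    (add_sub_cancel (b.k j) n)).2 (g j)
  refine ⟨t, x, Finset.sum_congr rfl fun j _ => ?_⟩
  rw [← gtw_comp_cen _ _ (hb j), hx]

theorem expansion_unique_cen (b : GBasis E φ J) (hb : ∀ j, Cen (b.w j)) (Y : T) (n : ℤ)
    (t : Finset J) (x : ∀ j, E.S (n - b.k j) ⟶ P ⊗ Y)
    (h : ∑ j ∈ t, gact Y (add_sub_cancel (b.k j) n) (b.w j) (x j ≫ φ ▷ Y) = 0) :
    ∀ j ∈ t, x j = 0 := by
  intro j hj
  have h1 := b.sum_eq_zero Y t (fun j => gtw (add_sub_cancel (b.k j) n) (x j)) (by
    rw [← h]
    exact Finset.sum_congr rfl fun j _ => gtw_comp_cen _ _ (hb j) _) j hj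
  exact (gtw_bijective (E := E) (F := P) (Y := Y) (add_sub_cancel (b.k j) n)).1
    (h1.trans (GBasis.gtw_zero _).symm)

/-- **Elements of `MP E B W` are unique sums `∑ w a • φ (x a)`, for a central basis.** -/
theorem bij_basis_cen (b : GBasis E φ J) (hb : ∀ j, Cen (b.w j)) (hS : ∀ n, IsSphere (E.S n))
    (W : T) : Function.Bijective fun x : J →₀ MP E P W =>
      x.sum fun a m => HRing.of E B (b.k a) (b.w a) • MP.push E φ W m := by
  classical
  constructor
  · have hinj : ∀ x : J →₀ MP E P W, (x.sum fun a m => HRing.of E B (b.k a) (b.w a) •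
        MP.push E φ W m) = 0 → x = 0 := by
      intro x hx
      ext1 a
      rw [Finsupp.zero_apply]
      by_cases ha : a ∈ x.support
      · refine MP.ext_comp fun m => ?_
        rw [map_zero]
        have h1 := congrArg (MP.comp E B W (b.k a + m)) hx
        rw [Finsupp.sum, map_sum, map_zero] at h1
        have h2 := expansion_unique_cen b hb W (b.k a + m) x.support
          (fun j => MP.comp E P W (b.k a + m - b.k j) (x j)) (by
            rw [← h1]
            refine Finset.sum_congr rfl fun j _ => ?_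
            rw [MP.comp_of_smul (add_sub_cancel (b.k j) (b.k a + m)), MP.comp_push]
            rfl) a ha
        rwa [add_sub_cancel_left] at h2
      · exact Finsupp.notMem_support_iff.1 ha
    intro x y hxy
    rw [← sub_eq_zero]
    apply hinj
    rw [Finsupp.sum_sub_index (by
      intro a m m'
      rw [map_sub, smul_sub])]
    rw [sub_eq_zero]
    exact hxy
  · have hadd : ∀ x y : J →₀ MP E P W, ((x + y).sum fun a m => HRing.of E B (b.k a) (b.w a) •
        MP.push E φ W m) = (x.sum fun a m => HRing.of E B (b.k a) (b.w a) • MP.push E φ W m) +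
          y.sum fun a m => HRing.of E B (b.k a) (b.w a) • MP.push E φ W m := fun x y =>
      Finsupp.sum_add_index' (fun a => by rw [map_zero, smul_zero])
        (fun a m m' => by rw [map_add, smul_add])
    intro y
    induction y using MP.ind with
    | zero => exact ⟨0, Finsupp.sum_zero_index⟩
    | of n f =>
      obtain ⟨t, x, hx⟩ := exists_expansion_cen b hb W n (hS n) f
      refine ⟨Finsupp.onFinset t (fun j => if j ∈ t then MP.of E P W (n - b.k j) (x j) else 0) (by
        intro a ha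
        by_contra h1
        exact ha (if_neg h1)), ?_⟩
      dsimp only
      rw [Finsupp.onFinset_sum _ (fun a => by rw [map_zero, smul_zero]), hx, map_sum]
      refine Finset.sum_congr rfl fun j hj => ?_
      rw [if_pos hj, MP.push_of, MP.smul_of (add_sub_cancel (b.k j) n)]
      rfl
    | add x y hx hy =>
      obtain ⟨x', hx'⟩ := hx
      obtain ⟨y', hy'⟩ := hy
      exact ⟨x' + y', by
        dsimp only at hx' hy' ⊢
        rw [hadd, hx', hy']⟩

end basis

end Vale.Agent.P241.H171
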