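import Mathlib.Algebra.Module.Torsion.Basic
import Mathlib.LinearAlgebra.TensorProduct.Quotient
import Mathlib.RingTheory.TensorProduct.Basic

/-!
# P241, block EX: the retract argument for the exactness of `W ↦ H/J ⊗ M(W)`, with annihilators

The argument of `P251.X.Retract` for modules which are killed by an ideal `N` of `H`: `B` need only
be free over `H/(N, a - 1)`.

`H → G` (`i`) free on `β`, a second homomorphism `j : H → G` (the coaction), a common retraction
`κ : G → H`; `B` an `H`-algebra, free over `H/(a - 1)` on `b`; `θ : G → B` with `θ i = λ`,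
`θ j = C χ`, `C : H/J → B` split by `ε`. If `M` is an `H`-module and `M'' = G ⊗_i M` comes with
`ψ : M → M''` over `j`, split by `k : M'' → M` over `κ`, then `M/J M` is a natural retract of
`B ⊗_H M`. Hence `M ↦ M/J M` is exact as soon as `M ↦ M/(a - 1)M` is exact.
-/

open TensorProduct

namespace Vale.Agent.P241.H171

/-- The ring side of the retract. -/
structure RetR (H B G I E : Type*) [CommRing H] [CommRing B] [CommRing G] [Algebra H B] where
  /-- the kernel of the point -/
  J : Ideal H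
  /-- the left unit -/
  i : H →+* G
  /-- the right unit (the coaction) -/
  j : H →+* G
  /-- the counit -/
  κ : G →+* H
  /-- the classifying map -/
  θ : G →+* B
  /-- the constants -/
  C : H ⧸ J →+* B
  /-- the augmentation -/
  ε : B →+* H ⧸ J
  θi : ∀ h, θ (i h) = algebraMap H B h
  θj : ∀ h, θ (j h) = C (Ideal.Quotient.mk J h)
  κi : ∀ h, κ (i h) = h
  εθ : ∀ g, ε (θ g) = Ideal.Quotient.mk J (κ g)
  /-- the basis of `G` over `i` -/
  β : I → G
  spanG : ∀ g, ∃ x : I →₀ H, g = x.sum fun a h => i h * β a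
  /-- the element which acts as `1` on `B` -/
  a : H
  /-- the basis of `B` over `H/(a - 1)` -/
  b : E → B
  ha : algebraMap H B a = 1
  spanB : ∀ f : B, ∃ x : E →₀ H, f = x.sum fun e h => h • b e
  /-- the ideal which kills the modules -/
  N : Ideal H
  indB : ∀ x : E →₀ H, (x.sum fun e h => h • b e) = 0 → ∀ e, ∃ h', x e - (a - 1) * h' ∈ N

/-- The module side of the retract. -/
structure RetM {H B G I E : Type*} [CommRing H] [CommRing B] [CommRing G] [Algebra H B]
    (r : RetR H B G I E) (M M' : Type*) [AddCommGroup M] [Module H M] [AddCommGroup M']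
    [Module G M'] where
  /-- the left unit -/
  io : M →+ M'
  hio : ∀ h m, io (h • m) = r.i h • io m
  bij : Function.Bijective fun x : I →₀ M => x.sum fun a m => r.β a • io m
  /-- the coaction -/
  ψ : M →+ M'
  hψ : ∀ h m, ψ (h • m) = r.j h • ψ m
  /-- the counit -/
  k : M' →+ M
  hk : ∀ g m, k (g • io m) = r.κ g • m
  kψ : ∀ m, k (ψ m) = m
  /-- `N` kills `M` -/
  hN : ∀ h ∈ r.N, ∀ m : M, h • m = 0

section aux

variable {H M : Type*} [CommRing H] [AddCommGroup M] [Module H M]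

theorem mem_of_one_tmul (I : Ideal H) (m : M) (h : (1 : H ⧸ I) ⊗ₜ[H] m = 0) :
    m ∈ I • (⊤ : Submodule H M) := by
  have h5 := TensorProduct.quotTensorEquivQuotSMul_mk_tmul (M := M) I 1 m
  rw [one_smul] at h5
  have h6 : (Ideal.Quotient.mk I 1 : H ⧸ I) = 1 := map_one _
  rw [h6, h, map_zero] at h5
  exact (Submodule.Quotient.mk_eq_zero _).1 h5.symm

theorem exists_of_mem_smul (a : H) (N : Ideal H) (hN : ∀ h ∈ N, ∀ m : M, h • m = 0) (m : M)
    (h : m ∈ (Ideal.span {a - 1} ⊔ N) • (⊤ : Submodule H M)) : ∃ m', m = a • m' - m' := by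
  induction h using Submodule.smul_induction_on' with
  | smul h hh m _ =>
    obtain ⟨y, hy, z, hz, rfl⟩ := Submodule.mem_sup.1 hh
    obtain ⟨c, rfl⟩ := Ideal.mem_span_singleton'.1 hy
    exact ⟨c • m, by rw [add_smul, hN z hz, add_zero, mul_comm, mul_smul, sub_smul, one_smul]⟩
  | add x _ y _ hx hy =>
    obtain ⟨x', rfl⟩ := hx
    obtain ⟨y', rfl⟩ := hy
    exact ⟨x' + y', by rw [smul_add]; abel⟩

end aux

namespace RetM

variable {H B G I E : Type*} [CommRing H] [CommRing B] [CommRing G] [Algebra H B]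
  {r : RetR H B G I E} {M M' : Type*} [AddCommGroup M] [Module H M] [AddCommGroup M']
  [Module G M'] (s : RetM r M M')

/-- `I →₀ M ≃ M'` -/
noncomputable def eqv : (I →₀ M) ≃+ M' :=
  AddEquiv.ofBijective (Finsupp.liftAddHom fun a =>
    (DistribSMul.toAddMonoidHom M' (r.β a)).comp s.io) s.bij

theorem eqv_single (a : I) (m : M) : s.eqv (Finsupp.single a m) = r.β a • s.io m := by
  change Finsupp.liftAddHom (fun a => (DistribSMul.toAddMonoidHom M' (r.β a)).comp s.io)
    (Finsupp.single a m) = _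
  rw [Finsupp.liftAddHom_apply_single]
  rfl

/-- `Θ : M' → B ⊗ M` -/
noncomputable def Θ : M' →+ B ⊗[H] M :=
  (Finsupp.liftAddHom fun a => (TensorProduct.mk H B M (r.θ (r.β a))).toAddMonoidHom).comp
    s.eqv.symm.toAddMonoidHom

theorem Θ_basis (a : I) (m : M) : s.Θ (r.β a • s.io m) = r.θ (r.β a) ⊗ₜ[H] m := by
  rw [← eqv_single]
  unfold Θ
  rw [AddMonoidHom.comp_apply]
  change Finsupp.liftAddHom _ (s.eqv.symm (s.eqv _)) = _
  rw [AddEquiv.symm_apply_apply, Finsupp.liftAddHom_apply_single]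
  rfl

theorem Θ_io (g : G) (m : M) : s.Θ (g • s.io m) = r.θ g ⊗ₜ[H] m := by
  obtain ⟨x, rfl⟩ := r.spanG g
  rw [Finsupp.sum, Finset.sum_smul, map_sum, map_sum, TensorProduct.sum_tmul]
  refine Finset.sum_congr rfl fun a _ => ?_
  have h1 : (r.i (x a) * r.β a) • s.io m = r.β a • s.io (x a • m) := by
    rw [mul_comm, mul_smul, s.hio]
  rw [h1, Θ_basis, map_mul, r.θi, TensorProduct.tmul_smul, TensorProduct.smul_tmul',
    Algebra.smul_def]

theorem Θ_smul (g : G) (x : M') : s.Θ (g • x) = r.θ g • s.Θ x := by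
  obtain ⟨y, rfl⟩ := s.eqv.surjective x
  induction y using Finsupp.induction_linear with
  | zero => rw [map_zero, smul_zero, map_zero, smul_zero]
  | add y y' hy hy' => rw [map_add, smul_add, map_add, hy, hy', map_add, smul_add]
  | single a m =>
    rw [eqv_single, ← mul_smul, Θ_io, Θ_io, map_mul]
    exact (TensorProduct.smul_tmul' (r.θ g) (r.θ (r.β a)) m).symm

variable (r M) in
/-- `B ⊗ M → M/JM` -/
noncomputable def ρ : B ⊗[H] M →ₗ[H] M ⧸ (r.J • (⊤ : Submodule H M)) :=
  TensorProduct.lift (LinearMap.mk₂ H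
    (fun b m => r.ε b • Submodule.Quotient.mk (p := r.J • (⊤ : Submodule H M)) m)
    (fun b b' m => by rw [map_add, add_smul])
    (fun h b m => by
      rw [Algebra.smul_def, map_mul, ← r.θi, r.εθ, r.κi, mul_smul]
      rfl)
    (fun b m m' => by rw [Submodule.Quotient.mk_add, smul_add])
    (fun h b m => by
      obtain ⟨c, hc⟩ := Ideal.Quotient.mk_surjective (r.ε b)
      rw [← hc]
      change c • (h • Submodule.Quotient.mk (p := r.J • (⊤ : Submodule H M)) m) =
        h • (c • Submodule.Quotient.mk (p := r.J • (⊤ : Submodule H M)) m)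
      rw [smul_comm]))

variable (r M) in
theorem ρ_tmul (b : B) (m : M) :
    ρ r M (b ⊗ₜ[H] m) = r.ε b • Submodule.Quotient.mk (p := r.J • (⊤ : Submodule H M)) m := rfl

theorem ρ_Θ (x : M') : ρ r M (s.Θ x) = Submodule.Quotient.mk (s.k x) := by
  obtain ⟨y, rfl⟩ := s.eqv.surjective x
  induction y using Finsupp.induction_linear with
  | zero => rw [map_zero, map_zero, map_zero, map_zero, Submodule.Quotient.mk_zero]
  | add y y' hy hy' => rw [map_add, map_add, map_add, hy, hy', map_add, Submodule.Quotient.mk_add]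
  | single a m =>
    rw [eqv_single, Θ_io, ρ_tmul, r.εθ, s.hk, Submodule.Quotient.mk_smul]
    rfl

theorem Θψ_of_mem (m : M) (hm : m ∈ r.J • (⊤ : Submodule H M)) : s.Θ (s.ψ m) = 0 := by
  induction hm using Submodule.smul_induction_on' with
  | smul h hh m _ =>
    rw [s.hψ, Θ_smul, r.θj, Ideal.Quotient.eq_zero_iff_mem.2 hh, map_zero, zero_smul]
  | add x _ y _ hx hy => rw [map_add, map_add, hx, hy, add_zero]

theorem exists_repr (t : B ⊗[H] M) : ∃ x : E →₀ M, t = x.sum fun e m => r.b e ⊗ₜ[H] m := by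
  classical
  induction t using TensorProduct.induction_on with
  | zero => exact ⟨0, by simp⟩
  | tmul f m =>
    obtain ⟨x, rfl⟩ := r.spanB f
    refine ⟨x.mapRange (fun h => h • m) (zero_smul _ _), ?_⟩
    rw [Finsupp.sum_mapRange_index (fun e => TensorProduct.tmul_zero _ _), Finsupp.sum,
      TensorProduct.sum_tmul]
    refine Finset.sum_congr rfl fun e _ => ?_
    dsimp only
    rw [TensorProduct.tmul_smul, TensorProduct.smul_tmul']
  | add t t' ht ht' =>
    obtain ⟨x, rfl⟩ := ht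
    obtain ⟨x', rfl⟩ := ht'
    exact ⟨x + x', (Finsupp.sum_add_index' (fun e => TensorProduct.tmul_zero _ _)
      (fun e m m' => TensorProduct.tmul_add _ _ _)).symm⟩

/-- the coordinate `B → H/(a - 1)` -/
theorem exists_coord (r : RetR H B G I E) (e : E) : ∃ c : B →ₗ[H] H ⧸ (Ideal.span {r.a - 1} ⊔ r.N),
    c (r.b e) = 1 ∧ ∀ e', e' ≠ e → c (r.b e') = 0 := by
  classical
  -- `E →₀ H → B`
  let φ : (E →₀ H) →ₗ[H] B := Finsupp.linearCombination H r.b
  have hφ : ∀ x, φ x = x.sum fun e h => h • r.b e := fun x => rfl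
  have hs : Function.Surjective φ := fun f => by
    obtain ⟨x, hx⟩ := r.spanB f
    exact ⟨x, hx.symm⟩
  let c₀ : (E →₀ H) →ₗ[H] H ⧸ (Ideal.span {r.a - 1} ⊔ r.N) :=
    (Submodule.mkQ (Ideal.span {r.a - 1} ⊔ r.N)).comp (Finsupp.lapply e)
  have hk : LinearMap.ker φ ≤ LinearMap.ker c₀ := by
    intro x hx
    rw [LinearMap.mem_ker, hφ] at hx
    obtain ⟨h', hh'⟩ := r.indB x hx e
    rw [LinearMap.mem_ker]
    change Submodule.Quotient.mk (x e) = 0
    rw [Submodule.Quotient.mk_eq_zero]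
    have h1 : (r.a - 1) * h' ∈ Ideal.span {r.a - 1} ⊔ r.N :=
      Submodule.mem_sup_left (Ideal.mul_mem_right _ _ (Ideal.mem_span_singleton_self _))
    have h2 := add_mem (Submodule.mem_sup_right hh' : _ ∈ Ideal.span {r.a - 1} ⊔ r.N) h1
    rwa [sub_add_cancel] at h2
  let eq := (Submodule.quotEquivOfEq _ _ rfl).trans (φ.quotKerEquivOfSurjective hs)
  refine ⟨((LinearMap.ker φ).liftQ c₀ hk).comp (φ.quotKerEquivOfSurjective hs).symm.toLinearMap,
    ?_, ?_⟩
  · have h1 : (φ.quotKerEquivOfSurjective hs).symm (r.b e) =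
        Submodule.Quotient.mk (Finsupp.single e 1) := by
      rw [LinearEquiv.symm_apply_eq]
      change _ = φ (Finsupp.single e 1)
      rw [Finsupp.linearCombination_single, one_smul]
    rw [LinearMap.comp_apply, LinearEquiv.coe_coe, h1]
    change c₀ (Finsupp.single e 1) = 1
    change Submodule.Quotient.mk ((Finsupp.single e (1 : H)) e) = _
    rw [Finsupp.single_eq_same]
    rfl
  · intro e' he'
    have h1 : (φ.quotKerEquivOfSurjective hs).symm (r.b e') =
        Submodule.Quotient.mk (Finsupp.single e' 1) := by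
      rw [LinearEquiv.symm_apply_eq]
      change _ = φ (Finsupp.single e' 1)
      rw [Finsupp.linearCombination_single, one_smul]
    rw [LinearMap.comp_apply, LinearEquiv.coe_coe, h1]
    change c₀ (Finsupp.single e' 1) = 0
    change Submodule.Quotient.mk ((Finsupp.single e' (1 : H)) e) = _
    rw [Finsupp.single_eq_of_ne (Ne.symm he')]
    rfl

theorem repr_zero (r : RetR H B G I E) (hN : ∀ h ∈ r.N, ∀ m : M, h • m = 0) (x : E →₀ M)
    (hx : (x.sum fun e m => r.b e ⊗ₜ[H] m) = 0) (e : E) : ∃ m : M, x e = r.a • m - m := by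
  classical
  obtain ⟨c, hc, hc'⟩ := exists_coord r e
  have h1 := congrArg (LinearMap.rTensor M c) hx
  rw [map_zero, Finsupp.sum, map_sum] at h1
  have h2 : ∀ e' ∈ x.support, e' ≠ e → LinearMap.rTensor M c (r.b e' ⊗ₜ[H] x e') = 0 := by
    intro e' _ he'
    rw [LinearMap.rTensor_tmul, hc' e' he', TensorProduct.zero_tmul]
  have h3 : (1 : H ⧸ (Ideal.span {r.a - 1} ⊔ r.N)) ⊗ₜ[H] x e = 0 := by
    by_cases he : e ∈ x.support
    · rw [Finset.sum_eq_single_of_mem e he h2, LinearMap.rTensor_tmul, hc] at h1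
      exact h1
    · rw [Finsupp.notMem_support_iff.1 he, TensorProduct.tmul_zero]
  exact exists_of_mem_smul r.a r.N hN (x e) (mem_of_one_tmul _ _ h3)

end RetM

section exact

variable {H B G I E : Type*} [CommRing H] [CommRing B] [CommRing G] [Algebra H B]
  {r : RetR H B G I E} {M₁ M₁' M₂ M₂' M₃ M₃' : Type*}
  [AddCommGroup M₁] [Module H M₁] [AddCommGroup M₁'] [Module G M₁']
  [AddCommGroup M₂] [Module H M₂] [AddCommGroup M₂'] [Module G M₂']
  [AddCommGroup M₃] [Module H M₃] [AddCommGroup M₃'] [Module G M₃']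

/-- a map between module sides -/
theorem Θ_map (s : RetM r M₁ M₁') (s' : RetM r M₂ M₂') (f : M₁ →ₗ[H] M₂) (f' : M₁' →ₗ[G] M₂')
    (hio : ∀ m, f' (s.io m) = s'.io (f m)) (x : M₁') :
    s'.Θ (f' x) = LinearMap.lTensor B f (s.Θ x) := by
  obtain ⟨y, rfl⟩ := s.eqv.surjective x
  induction y using Finsupp.induction_linear with
  | zero => simp only [map_zero]
  | add y y' hy hy' => simp only [map_add, hy, hy']
  | single a m =>
    rw [RetM.eqv_single, map_smul, hio, RetM.Θ_io, RetM.Θ_io, LinearMap.lTensor_tmul]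

theorem ρ_map (r : RetR H B G I E) (f : M₁ →ₗ[H] M₂) (t : B ⊗[H] M₁) (x : M₁)
    (hx : RetM.ρ r M₁ t = Submodule.Quotient.mk x) :
    RetM.ρ r M₂ (LinearMap.lTensor B f t) = Submodule.Quotient.mk (f x) := by
  have hf : r.J • (⊤ : Submodule H M₁) ≤ (r.J • (⊤ : Submodule H M₂)).comap f := by
    rw [Submodule.smul_le]
    intro h hh m _
    rw [Submodule.mem_comap, map_smul]
    exact Submodule.smul_mem_smul hh trivial
  have key : ∀ t, RetM.ρ r M₂ (LinearMap.lTensor B f t) =
      Submodule.mapQ _ _ f hf (RetM.ρ r M₁ t) := by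
    intro t
    induction t using TensorProduct.induction_on with
    | zero => simp only [map_zero]
    | add t t' ht ht' => simp only [map_add, ht, ht']
    | tmul b m =>
      rw [LinearMap.lTensor_tmul, RetM.ρ_tmul, RetM.ρ_tmul]
      obtain ⟨c, hc⟩ := Ideal.Quotient.mk_surjective (r.ε b)
      rw [← hc]
      change c • Submodule.Quotient.mk (p := r.J • (⊤ : Submodule H M₂)) (f m) =
        Submodule.mapQ _ _ f hf (c • Submodule.Quotient.mk (p := r.J • (⊤ : Submodule H M₁)) m)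
      rw [map_smul]
      rfl
  rw [key, hx]
  rfl

/-- **Exactness of `M ↦ M/JM`.** -/
theorem exact_of_retract (s₂ : RetM r M₂ M₂') (s₃ : RetM r M₃ M₃')
    (f : M₁ →ₗ[H] M₂) (g : M₂ →ₗ[H] M₃) (g' : M₂' →ₗ[G] M₃')
    (hg : ∀ m, g' (s₂.io m) = s₃.io (g m)) (hψ : ∀ m, g' (s₂.ψ m) = s₃.ψ (g m))
    (hex : ∀ (y : M₂) (z : M₃), g y = r.a • z - z → ∃ (x : M₁) (y' : M₂),
      y = f x + (r.a • y' - y'))
    (y : M₂) (hy : g y ∈ r.J • (⊤ : Submodule H M₃)) :
    ∃ x : M₁, y - f x ∈ r.J • (⊤ : Submodule H M₂) := by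
  classical
  obtain ⟨w, hw⟩ := RetM.exists_repr (r := r) (s₂.Θ (s₂.ψ y))
  -- `T (g y) = 0`
  have h1 : LinearMap.lTensor B g (s₂.Θ (s₂.ψ y)) = 0 := by
    rw [← Θ_map s₂ s₃ g g' hg, hψ, s₃.Θψ_of_mem _ hy]
  rw [hw, Finsupp.sum, map_sum] at h1
  have h2 : ∀ e, ∃ m : M₃, g (w e) = r.a • m - m := by
    intro e
    have := RetM.repr_zero r s₃.hN (w.mapRange g (map_zero g)) (by
      rw [Finsupp.sum_mapRange_index (fun e => TensorProduct.tmul_zero _ _), ← h1]
      rfl) e
    exact this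
  choose z hz using h2
  choose x y' hxy using fun e => hex (w e) (z e) (hz e)
  obtain ⟨x₀, hx₀⟩ := Submodule.Quotient.mk_surjective _
    (RetM.ρ r M₁ (∑ e ∈ w.support, r.b e ⊗ₜ[H] x e))
  refine ⟨x₀, ?_⟩
  have h3 : s₂.Θ (s₂.ψ y) = LinearMap.lTensor B f (∑ e ∈ w.support, r.b e ⊗ₜ[H] x e) := by
    rw [hw, Finsupp.sum, map_sum]
    refine Finset.sum_congr rfl fun e _ => ?_
    rw [hxy e, TensorProduct.tmul_add, TensorProduct.tmul_sub, TensorProduct.tmul_smul,
      TensorProduct.smul_tmul', Algebra.smul_def, r.ha, one_mul, sub_self, add_zero,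
      LinearMap.lTensor_tmul]
  have h4 := s₂.ρ_Θ (s₂.ψ y)
  rw [h3, ρ_map r f _ x₀ hx₀.symm, s₂.kψ, Submodule.Quotient.eq] at h4
  rw [← neg_sub]
  exact neg_mem h4

end exact

end Vale.Agent.P241.H171
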