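import Vale.Agent.P251.X.ExactA
import Vale.Agent.P241.H171.RetN

/-!
# P241, block EX: the algebra of the retract argument over `Cob Laz k`

* `cst` : the constant chain; `chi` its evaluation `Cob Laz k →+* 𝔽_p`;
* `cth` : the chain `F_0, …, F_k, Fb, …, Fb` over `𝔽_p[b][y]`, `F_0 = bL Fb` and `F_i` generic;
* `span_cob`, `ind_cob` : `𝔽_p[b][y]` is free over `Cob Laz k / (I_n, v_n - 1)` on the small
  monomials.
-/

open Vale.Agent.P217 Vale.Agent.P251.F Vale.Agent.P251.Z Vale.Agent.P251.X

noncomputable section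

namespace Vale.Agent.P241.H171

section chains

variable {B C : Type} [CommRing B] [CommRing C]

/-- the constant chain -/
def cst (F : Law B) (s : ℕ) : Chain Laz s B where
  pt := Laz.lift F
  g _ := 1
  strict _ := one_mem _
  zero := rfl

theorem cst_res (F : Law B) (s t : ℕ) (α : Fin (t + 1) → Fin (s + 1)) :
    (cst F s).res α = cst F t := by
  ext1
  · rw [Chain.res_pt]
    exact LawRing.act_one _
  · funext i
    rw [Chain.res_g]
    exact mul_inv_cancel 1

theorem cst_map (F : Law B) (s : ℕ) (φ : B →+* C) : (cst F s).map φ = cst (F.map φ) s := by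
  ext1
  · rw [Chain.map_pt]
    exact Laz.comp_lift _ _
  · funext i
    rw [Chain.map_g]
    exact map_one _

/-- the front face -/
abbrev fr (k m : ℕ) : Fin (k + 1) → Fin (k + m + 1) := Cob.front k m

/-- the back face -/
def bk (k : ℕ) : Fin (k + 1) → Fin (k + (k + 1) + 1) := fun i => ⟨k + 1 + i, by omega⟩

/-- the fold map -/
def fo (k : ℕ) : Fin (k + (k + 1) + 1) → Fin (k + 1) := fun i =>
  if h : (i : ℕ) < k + 1 then ⟨i, h⟩ else ⟨i - (k + 1), by omega⟩

theorem fo_fr (k : ℕ) : fo k ∘ fr k (k + 1) = id := by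
  funext i
  apply Fin.ext
  have h : ((fr k (k + 1) i : Fin (k + (k + 1) + 1)) : ℕ) = i := rfl
  simp only [Function.comp_apply, fo, h, id]
  rw [dif_pos i.2]

theorem fo_bk (k : ℕ) : fo k ∘ bk k = id := by
  funext i
  apply Fin.ext
  have h : ((bk k i : Fin (k + (k + 1) + 1)) : ℕ) = k + 1 + i := rfl
  simp only [Function.comp_apply, fo, h, id]
  rw [dif_neg (by omega)]
  change k + 1 + (i : ℕ) - (k + 1) = i
  omega

end chains

variable (p : ℕ) (Fb : Law (ZMod p)) (k m : ℕ)

/-- the ring `𝔽_p[b][y]` -/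
abbrev Bt : Type := MvPolynomial (Fin k × ℕ) (MvPolynomial ℕ (ZMod p))

variable {p}

/-- the homomorphism `Cob Laz k → 𝔽_p[b][y]` -/
def lam : Cob Laz k →+* Bt p k := MvPolynomial.map (Laz.lift (bL Fb))

/-- the generic series `x + b_0 x^2 + …` -/
def ser : InvSeries (Bt p k) := strictMk fun l => MvPolynomial.C (MvPolynomial.X l)

/-- the chain `F_0, …, F_k, Fb, …, Fb` -/
def cth : Chain Laz (k + m) (Bt p k) where
  pt := MvPolynomial.C.comp (Laz.lift (bL Fb))
  g i := if h : (i : ℕ) < k + 1 then
      (Fin.cons 1 fun j => strictMk fun l => MvPolynomial.X (j, l) :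
        Fin (k + 1) → InvSeries (Bt p k)) ⟨i, h⟩
    else (ser k)⁻¹
  strict i := by
    split_ifs with h
    · generalize (⟨i, h⟩ : Fin (k + 1)) = j
      refine Fin.cases ?_ (fun j => ?_) j
      · rw [Fin.cons_zero]
        exact one_mem _
      · rw [Fin.cons_succ]
        exact strictMk_mem _
    · exact inv_mem (strictMk_mem _)
  zero := by
    have h : ((0 : Fin (k + m + 1)) : ℕ) < k + 1 := Nat.succ_pos k
    rw [dif_pos h]
    exact Fin.cons_zero _ _

theorem cth_g_front (i : Fin (k + 1)) : (cth Fb k m).g (fr k m i) =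
    (Fin.cons 1 fun j => strictMk fun l => MvPolynomial.X (j, l) :
        Fin (k + 1) → InvSeries (Bt p k)) i := by
  change (if h : (i : ℕ) < k + 1 then _ else _) = _
  rw [dif_pos i.2]
  rfl

theorem cth_g_back (i : Fin (k + 1)) : (cth Fb k (k + 1)).g (bk k i) = (ser k)⁻¹ := by
  change (if h : k + 1 + (i : ℕ) < k + 1 then _ else _) = _
  rw [dif_neg (by omega)]

theorem ev_cth_front (h : Cob Laz k) : Cob.ev (cth Fb k m) (Cob.map (fr k m) h) = lam Fb k h := by
  rw [Cob.ev_map_res]
  have key : Cob.ev ((cth Fb k m).res (fr k m)) = lam Fb k := by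
    have h0 : (cth Fb k m).g (fr k m 0) = 1 := (cth Fb k m).zero
    apply MvPolynomial.ringHom_ext
    · intro a
      rw [Cob.ev_C, Chain.res_pt, h0, LawRing.act_one]
      exact (MvPolynomial.map_C _ _).symm
    · rintro ⟨i, l⟩
      rw [Cob.ev_X, Chain.res_g, h0, inv_one, mul_one, cth_g_front, Fin.cons_succ,
        c_succ_strictMk]
      exact (MvPolynomial.map_X _ _).symm
  rw [key]

/-- evaluation at the constant chain -/
def chi : Cob Laz k →+* ZMod p := Cob.ev (cst Fb k)

theorem chi_C (z : Laz) : chi Fb k (MvPolynomial.C z) = Laz.lift Fb z := Cob.ev_C _ _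

theorem chi_X (i : Fin k × ℕ) : chi Fb k (MvPolynomial.X i) = 0 := by
  unfold chi
  rw [Cob.ev_X]
  exact InvSeries.c_one_succ _

theorem ser_inv_smul : (ser (p := p) k)⁻¹ • ((bL Fb).map (MvPolynomial.C (σ := Fin k × ℕ))) =
    Fb.map (MvPolynomial.C.comp (MvPolynomial.C (σ := ℕ))) := by
  unfold bL ser
  rw [InvSeries.map_smul, map_strictMk, Law.map_map, inv_smul_smul]

theorem ev_cth_back (h : Cob Laz k) : Cob.ev (cth Fb k (k + 1)) (Cob.map (bk k) h) =
    MvPolynomial.C (MvPolynomial.C (chi Fb k h)) := by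
  rw [Cob.ev_map_res]
  have key : (cth Fb k (k + 1)).res (bk k) =
      (cst Fb k).map (MvPolynomial.C.comp (MvPolynomial.C (σ := ℕ))) := by
    rw [cst_map]
    ext1
    · rw [Chain.res_pt, cth_g_back, Laz.act_eq]
      change Laz.lift ((ser k)⁻¹ • Laz.univ.map (MvPolynomial.C.comp (Laz.lift (bL Fb)))) = _
      rw [← Law.map_map, Laz.univ_map_lift, ser_inv_smul]
      rfl
    · funext i
      rw [Chain.res_g, cth_g_back, cth_g_back, mul_inv_cancel]
      rfl
  rw [key, Cob.ev_map]
  rfl

theorem constantCoeff_ev_cth (g : Cob Laz (k + (k + 1))) :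
    MvPolynomial.constantCoeff (MvPolynomial.constantCoeff (Cob.ev (cth Fb k (k + 1)) g)) =
      chi Fb k (Cob.map (fo k) g) := by
  unfold chi
  rw [Cob.ev_map_res, cst_res]
  change (MvPolynomial.constantCoeff.comp MvPolynomial.constantCoeff) _ = _
  rw [← Cob.ev_map]
  congr 2
  ext1
  · rw [Chain.map_pt]
    change (MvPolynomial.constantCoeff.comp MvPolynomial.constantCoeff).comp
      (MvPolynomial.C.comp (Laz.lift (bL Fb))) = _
    have h1 : ((MvPolynomial.constantCoeff (σ := ℕ) (R := ZMod p)).comp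
        (MvPolynomial.constantCoeff (σ := Fin k × ℕ))).comp MvPolynomial.C =
        MvPolynomial.constantCoeff := RingHom.ext fun x => by
      rw [RingHom.comp_apply, RingHom.comp_apply, MvPolynomial.constantCoeff_C]
    rw [← RingHom.comp_assoc, h1, Laz.comp_lift, map_constantCoeff_bL]
    rfl
  · funext i
    rw [Chain.map_g]
    change InvSeries.map _ (if h : (i : ℕ) < k + 1 then _ else _) = 1
    split_ifs with h
    · generalize (⟨i, h⟩ : Fin (k + 1)) = j
      refine Fin.cases ?_ (fun j => ?_) j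
      · rw [Fin.cons_zero, map_one]
      · rw [Fin.cons_succ, map_strictMk, ← strictMk_zero]
        congr 1
        funext l
        rw [RingHom.comp_apply, MvPolynomial.constantCoeff_X, map_zero]
    · rw [map_inv]
      unfold ser
      rw [map_strictMk]
      have h2 : (fun l => ((MvPolynomial.constantCoeff (σ := ℕ) (R := ZMod p)).comp
          (MvPolynomial.constantCoeff (σ := Fin k × ℕ))) (MvPolynomial.C (MvPolynomial.X l))) =
          fun _ => 0 := by
        funext l
        rw [RingHom.comp_apply, MvPolynomial.constantCoeff_C, MvPolynomial.constantCoeff_X]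
      rw [h2, strictMk_zero, inv_one]

section free

variable {n : ℕ} [hp : Fact p.Prime] (hF : ∀ i < n, vv p i Fb = 0) (hv : vv p n Fb = 1)

include hF hv in
theorem span_cob (hn : n ≠ 0) (f : Bt p k) : ∃ x : Small (kdeg p n) →₀ Cob Laz k,
    f = x.sum fun e z => lam Fb k z * MvPolynomial.C (MvPolynomial.monomial (e : ℕ →₀ ℕ) 1) := by
  induction f using MvPolynomial.induction_on' with
  | monomial u a =>
    obtain ⟨y, rfl⟩ := span_small Fb hF hv hn a
    refine ⟨y.mapRange (fun z => MvPolynomial.monomial u z) (map_zero _), ?_⟩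
    rw [Finsupp.sum_mapRange_index (fun e => by rw [map_zero, zero_mul]), Finsupp.sum, map_sum]
    refine Finset.sum_congr rfl fun e _ => ?_
    dsimp only
    unfold lam
    rw [MvPolynomial.map_monomial, mul_comm _ (MvPolynomial.C _), MvPolynomial.C_mul_monomial,
      mul_comm]
  | add f g hf hg =>
    obtain ⟨x, rfl⟩ := hf
    obtain ⟨y, rfl⟩ := hg
    exact ⟨x + y, (Finsupp.sum_add_index' (fun e => by rw [map_zero, zero_mul])
      (fun e z z' => by rw [map_add, add_mul])).symm⟩

include hF hv in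
theorem ind_cob (hn : n ≠ 0) (x : Small (kdeg p n) →₀ Cob Laz k)
    (hx : (x.sum fun e z => lam Fb k z *
      MvPolynomial.C (MvPolynomial.monomial (e : ℕ →₀ ℕ) 1)) = 0) (e : Small (kdeg p n)) :
    ∃ h', x e - (MvPolynomial.C (Laz.v p n) - 1) * h' ∈
      (Laz.I p n).map (MvPolynomial.C : Laz →+* Cob Laz k) := by
  classical
  have h1 : ∀ u, MvPolynomial.coeff u (x e) ∈ idV p n := by
    intro u
    refine ind_small Fb hF hv hn (x.mapRange (MvPolynomial.coeff u)
      (MvPolynomial.coeff_zero u)) ?_ e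
    rw [Finsupp.sum_mapRange_index (fun e => by rw [map_zero, zero_mul])]
    have h2 := congrArg (MvPolynomial.coeff u) hx
    rw [Finsupp.sum, MvPolynomial.coeff_sum, MvPolynomial.coeff_zero] at h2
    rw [← h2]
    refine Finset.sum_congr rfl fun e _ => ?_
    rw [mul_comm (lam Fb k (x e)), MvPolynomial.coeff_C_mul, mul_comm]
    unfold lam
    rw [MvPolynomial.coeff_map]
  choose w hw using fun u => exists_of_mem_idV (h1 u)
  refine ⟨∑ u ∈ (x e).support, MvPolynomial.monomial u (w u), ?_⟩
  have h3 : x e - (MvPolynomial.C (Laz.v p n) - 1) *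
      ∑ u ∈ (x e).support, MvPolynomial.monomial u (w u) =
      ∑ u ∈ (x e).support, MvPolynomial.monomial u
        (MvPolynomial.coeff u (x e) - (Laz.v p n - 1) * w u) := by
    have h4 : ∑ u ∈ (x e).support, MvPolynomial.monomial u (MvPolynomial.coeff u (x e)) = x e :=
      MvPolynomial.support_sum_monomial_coeff _
    nth_rewrite 1 [← h4]
    rw [Finset.mul_sum, ← Finset.sum_sub_distrib]
    refine Finset.sum_congr rfl fun u _ => ?_
    rw [← MvPolynomial.C_1, ← MvPolynomial.C_sub, MvPolynomial.C_mul_monomial, ← map_sub]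
  rw [h3]
  refine sum_mem fun u _ => ?_
  rw [← mul_one (MvPolynomial.coeff u (x e) - (Laz.v p n - 1) * w u),
    ← MvPolynomial.C_mul_monomial]
  exact Ideal.mul_mem_right _ _ (Ideal.mem_map_of_mem _ (hw u))

end free

end Vale.Agent.P241.H171
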