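import Vale.Agent.P241.EX.AD
import Vale.Agent.P251.S.AmitsurCup
import Vale.Agent.P241.H171.CenBasis
import Vale.Agent.P241.H171.CobAlg

/-!
# P241, block EX: the basis of `A ⊗ MU^{⊗ m}` over `A`

* `sp R k m : Am R (k + m + 1) ⟶ Am R (k + 1) ⊗ Am R m` and its compatibilities with the front
  face, the back face and the fold map;
* `exists_outer_basis` : a graded basis of `A ⊗ Am R m` over `A` with classes in `Cob Laz (k + m)`.
-/

open CategoryTheory MonoidalCategory Limits Pretriangulated MonObj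

set_option linter.unusedSectionVars false

universe v u

noncomputable section

namespace Vale.Agent.P241.H171

open Vale.Agent.P251.T Vale.Agent.P251.M Vale.Agent.P251.M.EvenSpheres Vale.Agent.P251.S
  Vale.Agent.P251.F Vale.Agent.P251.I Vale.Agent.P251.Z Vale.Agent.P251.X

section maps

variable {T : Type u} [Category.{v} T] [MonoidalCategory T] [SymmetricCategory T]

lemma tensorμ_braid (X Y B C : T) : (β_ (X ⊗ Y) (B ⊗ C)).hom ≫ tensorμ B C X Y =
    tensorμ X Y B C ≫ ((β_ X B).hom ⊗ₘ (β_ Y C).hom) := by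
  simp only [tensorμ, Category.assoc,
    BraidedCategory.braiding_tensor_right_hom, BraidedCategory.braiding_tensor_left_hom,
    comp_whiskerRight, whisker_assoc, whiskerLeft_comp, pentagon_assoc,
    pentagon_inv_hom_hom_hom_inv_assoc, Iso.inv_hom_id_assoc, whiskerLeft_hom_inv_assoc]
  rw [← MonoidalCategory.whiskerLeft_comp_assoc B (_ ▷ _) (_ ▷ _), ← comp_whiskerRight,
    SymmetricCategory.symmetry]
  simp [MonoidalCategory.tensorHom_def]

theorem Cen.tensor {X Y B C : T} [MonObj B] [MonObj C] {f : X ⟶ B} {g : Y ⟶ C} (hf : Cen f)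
    (hg : Cen g) : Cen (f ⊗ₘ g) := by
  unfold Cen at hf hg ⊢
  change (β_ (X ⊗ Y) (B ⊗ C)).hom ≫ (B ⊗ C) ◁ (f ⊗ₘ g) ≫ tensorμ B C B C ≫ (μ[B] ⊗ₘ μ[C]) =
    (f ⊗ₘ g) ▷ (B ⊗ C) ≫ tensorμ B C B C ≫ (μ[B] ⊗ₘ μ[C])
  rw [reassoc_of% tensorμ_natural_right B C f g, reassoc_of% tensorμ_natural_left f g B C,
    reassoc_of% tensorμ_braid, tensorHom_comp_tensorHom, tensorHom_comp_tensorHom,
    tensorHom_comp_tensorHom, hf, hg]

theorem Cen.whiskerRight {X B C : T} [MonObj B] [MonObj C] [IsCommMonObj C] {f : X ⟶ B}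
    (hf : Cen f) : Cen (f ▷ C) := by
  rw [← tensorHom_id]
  exact hf.tensor (cen_of_comm _)

variable (R : T) [MonObj R] [IsCommMonObj R]

/-- the components of `sp` -/
def spf (k m : ℕ) (i : Fin (k + m + 1)) : R ⟶ Am R (k + 1) ⊗ Am R m :=
  if h : (i : ℕ) < k + 1 then Am.v R ⟨i, h⟩ ≫ inlM (Am R (k + 1)) (Am R m)
  else Am.v R (⟨i - (k + 1), by omega⟩ : Fin m) ≫ inrM (Am R (k + 1)) (Am R m)

instance (k m : ℕ) (i : Fin (k + m + 1)) : IsMonHom (spf R k m i) := by
  unfold spf
  split_ifs <;> infer_instance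

/-- the isomorphism `R^{⊗ (k+m+1)} ⟶ R^{⊗ (k+1)} ⊗ R^{⊗ m}` -/
def sp (k m : ℕ) : Am R (k + m + 1) ⟶ Am R (k + 1) ⊗ Am R m := Am.lift (spf R k m)

instance (k m : ℕ) : IsMonHom (sp R k m) := inferInstanceAs (IsMonHom (Am.lift (spf R k m)))

theorem v_sp_lt (k m : ℕ) (i : Fin (k + m + 1)) (h : (i : ℕ) < k + 1) :
    Am.v R i ≫ sp R k m = Am.v R ⟨i, h⟩ ≫ inlM (Am R (k + 1)) (Am R m) := by
  unfold sp
  rw [Am.v_lift]
  unfold spf
  rw [dif_pos h]

theorem v_sp_ge (k m : ℕ) (i : Fin (k + m + 1)) (h : ¬ (i : ℕ) < k + 1) (j : Fin m)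
    (hj : (j : ℕ) = i - (k + 1)) :
    Am.v R i ≫ sp R k m = Am.v R j ≫ inrM (Am R (k + 1)) (Am R m) := by
  unfold sp
  rw [Am.v_lift]
  unfold spf
  rw [dif_neg h]
  congr 2
  exact Fin.ext hj.symm

theorem map_fr_sp (k m : ℕ) : Am.map R (fr k m) ≫ sp R k m = inlM (Am R (k + 1)) (Am R m) := by
  apply Am.hom_ext
  intro i
  rw [Am.v_map_assoc, v_sp_lt R k m _ i.2]
  rfl

theorem map_bk_sp (k : ℕ) :
    Am.map R (bk k) ≫ sp R k (k + 1) = inrM (Am R (k + 1)) (Am R (k + 1)) := by
  apply Am.hom_ext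
  intro i
  have h : ((bk k i : Fin (k + (k + 1) + 1)) : ℕ) = k + 1 + i := rfl
  rw [Am.v_map_assoc]
  exact v_sp_ge R k (k + 1) _ (by omega) i (by omega)

theorem sp_mul (k : ℕ) : sp R k (k + 1) ≫ μ[Am R (k + 1)] = Am.map R (fo k) := by
  symm
  apply Am.map_eq_of
  intro i
  by_cases h : (i : ℕ) < k + 1
  · rw [← Category.assoc, v_sp_lt R k (k + 1) i h, Category.assoc, inlM_mul, Category.comp_id]
    congr 1
    unfold fo
    rw [dif_pos h]
  · have h2 : (i : ℕ) - (k + 1) < k + 1 := by omega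
    rw [← Category.assoc, v_sp_ge R k (k + 1) i h ⟨(i : ℕ) - (k + 1), h2⟩ rfl, Category.assoc,
      inrM_mul, Category.comp_id]
    congr 1
    unfold fo
    rw [dif_neg h]

theorem sp_succ (k m : ℕ) :
    sp R k (m + 1) = sp R k m ▷ R ≫ (α_ (Am R (k + 1)) (Am R m) R).hom := by
  have h0 : IsMonHom (sp R k m ▷ R ≫ (α_ (Am R (k + 1)) (Am R m) R).hom) := inferInstance
  apply Am.hom_ext (R := R) (n := k + m + 1 + 1)
  intro i
  refine Fin.lastCases ?_ (fun i => ?_) i
  · have h1 : ¬ ((Fin.last (k + m + 1) : Fin (k + m + 1 + 1)) : ℕ) < k + 1 := by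
      rw [Fin.val_last]; omega
    rw [v_sp_ge R k (m + 1) (Fin.last (k + m + 1)) h1 (Fin.last m) (by
      rw [Fin.val_last]
      change m = k + m + 1 - (k + 1)
      omega), Am.v_last, Am.v_last]
    rw [← Category.assoc, inrM_whiskerRight, inrM_associator]
  · by_cases h : (i : ℕ) < k + 1
    · rw [v_sp_lt R k (m + 1) i.castSucc h, Am.v_castSucc, Category.assoc,
        inlM_whiskerRight_assoc, ← Category.assoc, v_sp_lt R k m i h, Category.assoc,
        ← inlM_associator_inv_assoc, Iso.inv_hom_id, Category.comp_id]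
      rfl
    · have h2 : (i : ℕ) - (k + 1) < m := by omega
      rw [v_sp_ge R k (m + 1) i.castSucc h (Fin.castSucc ⟨_, h2⟩) rfl, Am.v_castSucc,
        Am.v_castSucc, Category.assoc (Am.v R i), inlM_whiskerRight_assoc, ← Category.assoc,
        v_sp_ge R k m i h ⟨_, h2⟩ rfl, Category.assoc, Category.assoc, inlM_associator,
        inrM_whiskerLeft]

end maps

section basis

variable {T : Type u} [Category.{v} T] [Preadditive T] [HasZeroObject T]
    [HasShift T ℤ] [∀ n : ℤ, (shiftFunctor T n).Additive] [Pretriangulated T] [IsTriangulated T]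
    [MonoidalCategory T] [SymmetricCategory T] [TensorTriangulated T] [MonoidalClosed T]
    [HasCoproducts.{0} T] [HasProducts.{0} T] [StableCat T] {D : MUData T}

variable {A : T} [MonObj A] {k : ℕ} (io : Am D.R (k + 1) ⟶ A) [IsMonHom io]

/-- the structure map `MU^{⊗ (k+m+1)} ⟶ A ⊗ MU^{⊗ m}` -/
def stu (m : ℕ) : Am D.R (k + m + 1) ⟶ A ⊗ Am D.R m := sp D.R k m ≫ io ▷ Am D.R m

instance (m : ℕ) : IsMonHom (stu io m) := inferInstanceAs (IsMonHom (sp D.R k m ≫ io ▷ Am D.R m))

theorem cen_stu (hio : Cen io) (m : ℕ) : Cen (stu io m) := (hio.whiskerRight).comp _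

theorem stu_succ (m : ℕ) : stu io (m + 1) = stu io m ▷ D.R ≫ (α_ A (Am D.R m) D.R).hom := by
  unfold stu
  rw [sp_succ, comp_whiskerRight, Category.assoc, Category.assoc]
  congr 1
  exact (associator_naturality_left io (Am D.R m) D.R).symm

theorem stu_zero : stu io 0 = io ≫ inlM A (Am D.R 0) := by
  have h : Am.map D.R (fr k 0) = 𝟙 _ := by
    have h0 : fr k 0 = id := rfl
    rw [h0, Am.map_id]
  have h1 := map_fr_sp D.R k 0
  rw [h, Category.id_comp] at h1
  unfold stu
  rw [h1, inlM_whiskerRight]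

/-- the first vertex -/
def ver (m : ℕ) : D.R ⟶ A ⊗ Am D.R m := Am.v D.R (0 : Fin (k + m + 1)) ≫ stu io m

instance (m : ℕ) : IsMonHom (ver io m) :=
  inferInstanceAs (IsMonHom (Am.v D.R (0 : Fin (k + m + 1)) ≫ stu io m))

/-- `Am R 2 ⟶ (A ⊗ R^{⊗ m}) ⊗ R` in terms of the structure map -/
theorem toKR_ver (m : ℕ) : D.toKR (ver io m) =
    Am.map D.R (Cob.al (k + m)) ≫ stu io m ▷ D.R := by
  have h1 : amOne D.R ≫ Am.v D.R (0 : Fin (k + m + 1)) = CobEv.v0 D.R (k + m) := by
    symm
    apply Am.map_eq_of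
    intro i
    rw [Subsingleton.elim i 0, ← Category.assoc, v_amOne, Category.id_comp]
  rw [map_al, ← h1, MUData.toKR, ver, ← comp_whiskerRight, Category.assoc]

theorem exists_outer_basis {Fc : SpaceFunctor T} {e : Fc.S.obj CCF ≅ (stdEven T).L}
    (H : MUUniv e D) (m : ℕ) : ∃ (J : Type) (b : GBasis (stdEven T) (inlM A (Am D.R m)) J)
      (β : J → Cob Laz (k + m)),
      (∀ j, HRing.of (stdEven T) (A ⊗ Am D.R m) (b.k j) (b.w j) =
        HRing.map (E := stdEven T) (stu io m) (D.ev (k + m) (β j))) ∧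
      ∀ g : Cob Laz (k + m), ∃ x : J →₀ Cob Laz k,
        g = x.sum fun j h => Cob.map (fr k m) h * β j := by
  classical
  induction m with
  | zero =>
    have h0 : inlM A (Am D.R 0) = (ρ_ A).inv := by
      unfold inlM
      change (ρ_ A).inv ≫ A ◁ 𝟙 (𝟙_ T) = (ρ_ A).inv
      rw [MonoidalCategory.whiskerLeft_id, Category.comp_id]
    have h1 : IsIso (inlM A (Am D.R 0)) := by
      rw [h0]
      infer_instance
    refine ⟨Unit, GBasis.transport (GBasis.one (stdEven T) A Unit) (𝟙 A) (inlM A (Am D.R 0)) (by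
      rw [Category.id_comp, Category.id_comp]), fun _ => 1, fun _ => ?_, fun g => ?_⟩
    · rw [map_one, map_one]
      change HRing.of (stdEven T) (A ⊗ Am D.R 0) 0
        (((stdEven T).zero.inv ≫ η[A]) ≫ inlM A (Am D.R 0)) = 1
      rw [← HRing.map_of, ← map_one (HRing.map (E := stdEven T) (inlM A (Am D.R 0)))]
      congr 1
    · refine ⟨Finsupp.single () g, ?_⟩
      rw [Finsupp.sum_single_index (by rw [map_zero, zero_mul]), _root_.mul_one]
      exact (Cob.map_id g).symm
  | succ m ih =>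
    obtain ⟨J, b, β, hβ, hs⟩ := ih
    obtain ⟨b', -, hb'⟩ := D.exists_basis_of (ver io m) H
    refine ⟨(ℕ →₀ ℕ) × J, GBasis.transport (b.trans b') (𝟙 A) (α_ A (Am D.R m) D.R).hom (by
        rw [Category.id_comp, ← inlM_associator_inv, Category.assoc, Iso.inv_hom_id,
          Category.comp_id]),
      fun uc => Cob.map Fin.castSucc (β uc.2) * MvPolynomial.monomial (Cob.last (k + m) uc.1) 1,
      ?_, ?_⟩
    · rintro ⟨u, j⟩
      change HRing.of (stdEven T) (A ⊗ (Am D.R m ⊗ D.R)) (b.k j + b'.k u)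
        (gmul rfl (b.w j ≫ inlM (A ⊗ Am D.R m) D.R) (b'.w u) ≫ (α_ A (Am D.R m) D.R).hom) = _
      have e1 : ∀ x, HRing.map (E := stdEven T) (stu io m ▷ D.R)
          (HRing.map (E := stdEven T) (Am.map D.R (Fin.castSucc : Fin (k + m + 1) → _)) x) =
          HRing.map (E := stdEven T) (inlM (A ⊗ Am D.R m) D.R)
            (HRing.map (E := stdEven T) (stu io m) x) := by
        intro x
        rw [← RingHom.comp_apply, ← RingHom.comp_apply, ← HRing.map_comp, ← HRing.map_comp]
        congr 1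
        apply HRing_map_congr
        rw [Am.map_castSucc, inlM_whiskerRight]
      have e2 : ∀ x, HRing.map (E := stdEven T) (stu io m ▷ D.R)
          (HRing.map (E := stdEven T) (Am.map D.R (Cob.al (k + m))) x) =
          HRing.map (E := stdEven T) (D.toKR (ver io m)) x := by
        intro x
        rw [← RingHom.comp_apply, ← HRing.map_comp]
        congr 1
        apply HRing_map_congr
        exact (toKR_ver io m).symm
      have e3 : ∀ x, HRing.map (E := stdEven T) (stu io (m + 1)) x =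
          HRing.map (E := stdEven T) (α_ A (Am D.R m) D.R).hom
            (HRing.map (E := stdEven T) (stu io m ▷ D.R) x) := by
        intro x
        rw [← RingHom.comp_apply, ← HRing.map_comp]
        congr 1
        apply HRing_map_congr
        exact stu_succ io m
      have e4 : D.ev (k + m + 1) (Cob.map Fin.castSucc (β j) *
          MvPolynomial.monomial (Cob.last (k + m) u) 1) =
          HRing.map (E := stdEven T) (Am.map D.R (Fin.castSucc : Fin (k + m + 1) → _))
            (D.ev (k + m) (β j)) *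
          HRing.map (E := stdEven T) (Am.map D.R (Cob.al (k + m)))
            (D.ev 1 (MvPolynomial.monomial (Cob.last 0 u) 1)) := by
        rw [D.ev_map, D.ev_map, Cob.map_al_monomial, map_mul]
      rw [← HRing.map_of, ← of_mul_of rfl, hb', ← HRing.map_of, hβ]
      refine Eq.trans ?_ (congrArg _ e4).symm
      refine Eq.trans ?_ (e3 _).symm
      rw [map_mul (HRing.map (E := stdEven T) (stu io m ▷ D.R)), e1, e2]
    · intro g
      induction g using MvPolynomial.induction_on' with
      | monomial v a =>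
        obtain ⟨⟨u, c⟩, rfl⟩ := (Cob.bijective_last_incl (s := k + m)).2 v
        obtain ⟨y, hy⟩ := hs (MvPolynomial.monomial c a)
        refine ⟨y.mapDomain fun j => (u, j), ?_⟩
        rw [Finsupp.sum_mapDomain_index_inj (fun j j' h => (Prod.ext_iff.1 h).2)]
        have h1 : (MvPolynomial.monomial (Cob.last (k + m) u + Cob.incl c) a :
            Cob Laz (k + m + 1)) = Cob.map Fin.castSucc (MvPolynomial.monomial c a) *
              MvPolynomial.monomial (Cob.last (k + m) u) 1 := by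
          rw [Cob.map_castSucc_monomial, MvPolynomial.monomial_mul, _root_.mul_one,
            add_comm (Cob.incl c)]
        change (MvPolynomial.monomial (Cob.last (k + m) u + Cob.incl c) a :
            Cob Laz (k + m + 1)) = _
        rw [h1, hy, Finsupp.sum, map_sum, Finset.sum_mul]
        refine Finset.sum_congr rfl fun j _ => ?_
        rw [map_mul, Cob.map_map, _root_.mul_assoc]
        rfl
      | add f g hf hg =>
        obtain ⟨x, hx⟩ := hf
        obtain ⟨y, hy⟩ := hg
        refine ⟨x + y, ?_⟩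
        rw [Finsupp.sum_add_index' (fun e => by rw [map_zero, zero_mul])
          (fun e z z' => by rw [map_add, add_mul]), ← hx, ← hy]

end basis

end Vale.Agent.P241.H171
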