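import Vale.Agent.P241.EX.AD
import Vale.Agent.P241.H171.CobAlg

/-!
# P241, block EX: the point of height `n = k + 1` of `π_{2*} A`

`Q : AD D p k`. `rho Q : Cob Laz k →+* π_{2*} A` is onto with kernel `I_n`; the evaluation at the
constant chain of the law `ptLaw p n` gives the point `ptA Q`.
-/

open CategoryTheory MonoidalCategory Limits Pretriangulated MonObj

set_option linter.unusedSectionVars false

universe v u

noncomputable section

namespace Vale.Agent.P241.H171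

open Vale.Agent.P217 Vale.Agent.P251.T Vale.Agent.P251.M Vale.Agent.P251.M.EvenSpheres
  Vale.Agent.P251.S Vale.Agent.P251.F Vale.Agent.P251.I Vale.Agent.P251.Z Vale.Agent.P251.X
  Vale.Agent.P241.EX

section alg

variable {p k : ℕ} [hp : Fact p.Prime]

theorem chi_of_mem (Fb : Law (ZMod p)) {n : ℕ} (hF : ∀ i < n, vv p i Fb = 0) {z : Cob Laz k}
    (hz : z ∈ (Laz.I p n).map (MvPolynomial.C : Laz →+* Cob Laz k)) : chi Fb k z = 0 := by
  have h1 : (Laz.I p n).map (MvPolynomial.C : Laz →+* Cob Laz k) ≤ RingHom.ker (chi Fb k) := by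
    rw [Ideal.map_le_iff_le_comap, Laz.I, Ih, Ideal.span_le]
    rintro _ ⟨i, hi, rfl⟩
    change chi Fb k (MvPolynomial.C (Laz.v p i)) = 0
    rw [chi_C, Laz.lift_v, hF i hi]
  exact h1 hz

/-- the law of the point -/
abbrev FbA (p n : ℕ) [Fact p.Prime] : Law (ZMod p) := ptLaw p n (CharP.cast_eq_zero (ZMod p) p) 1

theorem vv_FbA_lt (n : ℕ) : ∀ i < n, vv p i (FbA p n) = 0 := fun _ hi => vv_ptLaw_of_ne _ _ hi.ne

theorem chi_eq_zero {n : ℕ} {w : ℤ} {z : Cob Laz k} (hz : Cob.IsWt w z)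
    (hw : ¬ (((p ^ n - 1 : ℕ) : ℤ) ∣ w)) : chi (FbA p n) k z = 0 := by
  have h1 : chi (FbA p n) k z =
      Cob.ev (cst (FbA p n) 0) (Cob.map (fun _ : Fin (k + 1) => (0 : Fin 1)) z) := by
    rw [Cob.ev_map_res, cst_res]
    rfl
  obtain ⟨a, ha⟩ := Cob.exists_eq_C (Cob.map (fun _ : Fin (k + 1) => (0 : Fin 1)) z)
  have h2 : Cob.IsWt w (MvPolynomial.C a : Cob Laz 0) := ha ▸ hz.map _
  rw [h1, ha, Cob.ev_C]
  change Laz.lift (FbA p n) a = 0
  rw [← chiPt_eq_lift, chiPt_eq_zero h2 hw]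

end alg

variable {T : Type u} [Category.{v} T] [Preadditive T] [HasZeroObject T]
    [HasShift T ℤ] [∀ n : ℤ, (shiftFunctor T n).Additive] [Pretriangulated T] [IsTriangulated T]
    [MonoidalCategory T] [SymmetricCategory T] [TensorTriangulated T] [MonoidalClosed T]
    [HasCoproducts.{0} T] [HasProducts.{0} T] [StableCat T] {D : MUData T} {p k : ℕ}

section rho

variable (Q : AD D p k)

/-- `Cob Laz k ⟶ π_{2*} A` -/
def rho : Cob Laz k →+* HRing (stdEven T) Q.A := (HRing.map (E := stdEven T) Q.io).comp (D.ev k)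

theorem rho_apply (z : Cob Laz k) : rho Q z = HRing.map (E := stdEven T) Q.io (D.ev k z) := rfl

theorem rho_surjective : Function.Surjective (rho Q) := Q.surj

theorem rho_eq_zero_iff (z : Cob Laz k) :
    rho Q z = 0 ↔ z ∈ (Laz.I p (k + 1)).map (MvPolynomial.C : Laz →+* Cob Laz k) := Q.ker z

theorem exists_rho_wt {w : ℤ} {z : Cob Laz k} (hz : Cob.IsWt w z) :
    ∃ a : (stdEven T).S w ⟶ Q.A, rho Q z = HRing.of (stdEven T) Q.A w a := by
  obtain ⟨a, ha⟩ := D.ev_wt k w z hz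
  exact ⟨a ≫ Q.io, by rw [rho_apply, ha, HRing.map_of]⟩

/-- Every homogeneous element of `π_{2*} A` is the image of a homogeneous element. -/
theorem exists_wt_rho (j : ℤ) (a : (stdEven T).S j ⟶ Q.A) :
    ∃ z : Cob Laz k, Cob.IsWt j z ∧ rho Q z = HRing.of (stdEven T) Q.A j a := by
  classical
  obtain ⟨z, hz⟩ := rho_surjective Q (HRing.of (stdEven T) Q.A j a)
  rw [← Cob.sum_pr z, map_sum] at hz
  choose b hb using fun w => exists_rho_wt Q (Cob.isWt_pr (N := Laz) (n := k) w z)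
  have h1 : ∀ w, DFinsupp.evalAddMonoidHom (β := (stdEven T).Gr Q.A) j
      (rho Q (Cob.pr Laz k w z)) = if h : w = j then h ▸ b w else 0 := by
    intro w
    rw [hb]
    split_ifs with h
    · subst h
      exact DirectSum.of_eq_same (β := (stdEven T).Gr Q.A) w (b w)
    · exact DirectSum.of_eq_of_ne (β := (stdEven T).Gr Q.A) w j (b w) (Ne.symm h)
  have h2 := congrArg (DFinsupp.evalAddMonoidHom (β := (stdEven T).Gr Q.A) j) hz
  rw [map_sum] at h2
  have h3 : DFinsupp.evalAddMonoidHom (β := (stdEven T).Gr Q.A) j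
      (HRing.of (stdEven T) Q.A j a) = a :=
    DirectSum.of_eq_same (β := (stdEven T).Gr Q.A) j a
  rw [h3] at h2
  by_cases hj : j ∈ (Cob.chi (Cob.univ Laz k) z).coeff.support
  · refine ⟨Cob.pr Laz k j z, Cob.isWt_pr j z, ?_⟩
    rw [hb]
    congr 1
    rw [← h2, Finset.sum_eq_single j]
    · rw [h1, dif_pos rfl]
    · intro w _ hw
      rw [h1, dif_neg hw]
    · intro h
      exact absurd hj h
  · refine ⟨0, Cob.isWt_zero j, ?_⟩
    rw [map_zero, ← h2, Finset.sum_eq_zero]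
    · exact (map_zero (DirectSum.of ((stdEven T).Gr Q.A) j)).symm
    · intro w hw
      rw [h1, dif_neg]
      rintro rfl
      exact hj hw

theorem isWt_v [hp : Fact p.Prime] (n : ℕ) :
    Cob.IsWt ((p ^ n - 1 : ℕ) : ℤ) (MvPolynomial.C (Laz.v p n) : Cob Laz k) := by
  have h1 := (Laz.isWt_C_v hp.out.ne_zero n).map (fun _ : Fin 1 => (0 : Fin (k + 1)))
  rwa [Cob.map_C_of_zero _ rfl] at h1

/-- the element `v_n` -/
theorem exists_vA [hp : Fact p.Prime] (n : ℕ) : ∃ a : (stdEven T).S ((p ^ n - 1 : ℕ) : ℤ) ⟶ Q.A,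
    rho Q (MvPolynomial.C (Laz.v p n)) = HRing.of (stdEven T) Q.A ((p ^ n - 1 : ℕ) : ℤ) a :=
  exists_rho_wt Q (isWt_v n)

variable [hp : Fact p.Prime] (Fb : Law (ZMod p)) (hF : ∀ i < k + 1, vv p i Fb = 0)

/-- the point `π_{2*} A → 𝔽_p` of a law -/
def chA : HRing (stdEven T) Q.A →+* ZMod p :=
  RingHom.liftOfSurjective (rho Q) (rho_surjective Q)
    ⟨chi Fb k, fun z hz => chi_of_mem Fb hF ((rho_eq_zero_iff Q z).1 hz)⟩

@[simp] theorem chA_rho (z : Cob Laz k) : chA Q Fb hF (rho Q z) = chi Fb k z :=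
  RingHom.liftOfRightInverse_comp_apply _ _ _ _ _

/-- **The point of height `n = k + 1`** -/
def ptA : Pt (stdEven T) Q.A p (p ^ (k + 1) - 1) where
  χ := chA Q (FbA p (k + 1)) (vv_FbA_lt (k + 1))
  χ_of j hj a := by
    obtain ⟨z, hz, h⟩ := exists_wt_rho Q j a
    rw [← h, chA_rho, chi_eq_zero hz hj]
  v := (exists_vA Q (k + 1)).choose
  χ_v := by
    rw [← (exists_vA Q (k + 1)).choose_spec, chA_rho, chi_C, Laz.lift_v,
      vv_ptLaw (Nat.succ_ne_zero k)]

theorem ptA_χ (z : Cob Laz k) : (ptA Q).χ (rho Q z) = chi (FbA p (k + 1)) k z :=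
  chA_rho Q (FbA p (k + 1)) (vv_FbA_lt (k + 1)) z

theorem ptA_χ' (z : Cob Laz k) : (ptA Q).χ (HRing.map (E := stdEven T) Q.io (D.ev k z)) =
    chi (FbA p (k + 1)) k z := chA_rho Q (FbA p (k + 1)) (vv_FbA_lt (k + 1)) z

theorem ptA_v : HRing.of (stdEven T) Q.A ((p ^ (k + 1) - 1 : ℕ) : ℤ) (ptA Q).v =
    rho Q (MvPolynomial.C (Laz.v p (k + 1))) := (exists_vA Q (k + 1)).choose_spec.symm

end rho

end Vale.Agent.P241.H171
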